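import Vale.Agent.P215Z.Frm.Basic

/-!
# P215: combinatorics of the star of a two-cell
-/

noncomputable section
namespace Vale.Agent.P215Z.It
open MvPolynomial Classical
variable {O : Type} [CommRing O] [Algebra ℚ O]

theorem eps_pair : ∀ k l k' l' : Fin 4, k ≠ l → ∑ i, ∑ j, eps4 i j k' l' * eps4 i j k l =
    (if k' = k then (if l' = l then 2 else 0) else 0) -
      if k' = l then (if l' = k then 2 else 0) else 0 := by decide +kernel

theorem eps_swap : ∀ i j k l, eps4 i j k l = eps4 k l i j := by decide +kernel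

theorem eps_anti : ∀ i j k l, eps4 i j k l = -eps4 j i k l := by decide +kernel

theorem eps_ne : ∀ i j k l m, eps4 i j k l ≠ 0 → m ≠ i → m ≠ j → m = k ∨ m = l := by
  decide +kernel

theorem eps_k : ∀ i j m n k l : Fin 4, i ≠ j → j ≠ m → i ≠ m → n ≠ i → n ≠ j → n ≠ m → k ≠ l →
    eps4 j m k l * (if i = k then 1 else 0) + eps4 m i k l * (if j = k then 1 else 0) +
      eps4 i j k l * (if m = k then 1 else 0) = if n = l then eps4 i j m n else 0 := by
  decide +kernel

theorem eps_l : ∀ i j m n k l : Fin 4, i ≠ j → j ≠ m → i ≠ m → n ≠ i → n ≠ j → n ≠ m → k ≠ l →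
    eps4 j m k l * (if i = l then 1 else 0) + eps4 m i k l * (if j = l then 1 else 0) +
      eps4 i j k l * (if m = l then 1 else 0) = if n = k then -eps4 i j m n else 0 := by
  decide +kernel

theorem exists_n : ∀ i j m : Fin 4, i ≠ j → j ≠ m → i ≠ m →
    ∃ n, n ≠ i ∧ n ≠ j ∧ n ≠ m ∧ ∀ r, r ≠ n → r = i ∨ r = j ∨ r = m := by decide +kernel

theorem sum4 {M : Type} [AddCommMonoid M] (f : Fin 4 → Fin 4 → Fin 4 → Fin 4 → M) :
    ∑ i, ∑ j, ∑ k, ∑ l, f i j k l = ∑ k, ∑ l, ∑ i, ∑ j, f i j k l :=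
  calc ∑ i, ∑ j, ∑ k, ∑ l, f i j k l = ∑ i, ∑ k, ∑ j, ∑ l, f i j k l :=
        Finset.sum_congr rfl fun _ _ => Finset.sum_comm
    _ = ∑ k, ∑ i, ∑ j, ∑ l, f i j k l := Finset.sum_comm
    _ = ∑ k, ∑ i, ∑ l, ∑ j, f i j k l :=
        Finset.sum_congr rfl fun _ _ => Finset.sum_congr rfl fun _ _ => Finset.sum_comm
    _ = ∑ k, ∑ l, ∑ i, ∑ j, f i j k l := Finset.sum_congr rfl fun _ _ => Finset.sum_comm

section pts
variable {p q σ τ : Pt} {m r : Fin 4} {c : Bool}

theorem face_self (p : Pt) (m : Fin 4) (c : Bool) :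
    face p m c m = if c then p m + 1 else p m - 1 := Function.update_self _ _ _

theorem face_ne (p : Pt) (c : Bool) (h : r ≠ m) : face p m c r = p r :=
  Function.update_of_ne h _ _

theorem face_comm (p : Pt) (h : r ≠ m) (c c' : Bool) :
    face (face p m c) r c' = face (face p r c') m c := by
  funext j
  by_cases h1 : j = r
  · subst h1
    rw [face_self, face_ne _ _ h, face_ne _ _ h, face_self]
  · rw [face_ne _ _ h1]
    by_cases h2 : j = m
    · subst h2
      rw [face_self, face_self, face_ne _ _ h1]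
    · rw [face_ne _ _ h2, face_ne _ _ h2, face_ne _ _ h1]

theorem isFace_refl (p : Pt) : IsFace p p := fun _ => Or.inl rfl

theorem isFace_trans (h : IsFace σ τ) (h' : IsFace τ p) : IsFace σ p := by
  intro j
  rcases h j with h1 | ⟨h1, h2⟩
  · rw [h1]
    exact h' j
  · rcases h' j with h3 | ⟨h3, h4⟩
    · rw [← h3]
      exact Or.inr ⟨h1, h2⟩
    · exfalso
      rw [Int.odd_iff] at h1 h3
      rcases (abs_eq zero_le_one).1 h4 with h5 | h5 <;> omega

theorem isFace_even (h : IsFace σ τ) (he : Even (τ r)) : Even (σ r) := by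
  rcases h r with h1 | ⟨h1, -⟩
  · rwa [h1]
  · exact absurd he (Int.not_even_iff_odd.2 h1)

/-- `τ` is `σ` or a cell with the face `σ` in the direction `m` -/
def Nx (σ τ : Pt) (m : Fin 4) : Prop :=
  Even (σ m) ∧ (∀ j, j ≠ m → τ j = σ j) ∧ |τ m - σ m| ≤ 1

theorem Nx.cases (h : Nx σ τ m) : τ = σ ∨ ∃ c, Odd (τ m) ∧ σ = face τ m c := by
  obtain ⟨h1, h2, h3⟩ := h
  have h4 : ∀ c, σ m = face τ m c m → σ = face τ m c := fun c h5 => funext fun j => by
    by_cases h6 : j = m
    · rw [h6, h5]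
    · rw [face_ne _ _ h6, h2 j h6]
  rw [abs_le] at h3
  rw [Int.even_iff] at h1
  rcases lt_trichotomy (τ m) (σ m) with h5 | h5 | h5
  · refine Or.inr ⟨true, Int.odd_iff.2 (by omega), h4 _ ?_⟩
    rw [face_self, if_pos rfl]
    omega
  · refine Or.inl (funext fun j => ?_)
    by_cases h6 : j = m
    · rw [h6, h5]
    · exact h2 j h6
  · refine Or.inr ⟨false, Int.odd_iff.2 (by omega), h4 _ ?_⟩
    rw [face_self, if_neg Bool.false_ne_true]
    omega

theorem Nx.isFace (h : Nx σ τ m) : IsFace σ τ := by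
  intro j
  obtain ⟨h1, h2, h3⟩ := h
  by_cases h6 : j = m
  · subst h6
    rw [abs_le] at h3
    rw [Int.even_iff] at h1
    rw [Int.odd_iff, abs_eq zero_le_one]
    omega
  · exact Or.inl (h2 j h6).symm

theorem Nx.adj (h : Nx σ τ m) : Adj σ τ := by
  obtain ⟨-, h2, h3⟩ := h
  have h4 : τ - σ = (τ m - σ m) • ee m := funext fun j => by
    by_cases h6 : j = m
    · simp [h6, ee]
    · simp [h2 j h6, ee, h6]
  rw [abs_le] at h3
  rw [Adj, h4]
  rcases lt_trichotomy (τ m) (σ m) with h5 | h5 | h5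
  · exact Or.inr ⟨m, Or.inr (by rw [show τ m - σ m = -1 by omega, neg_one_smul])⟩
  · exact Or.inl (by rw [h5, sub_self, zero_smul])
  · exact Or.inr ⟨m, Or.inl (by rw [show τ m - σ m = 1 by omega, one_smul])⟩

/-- derivative of a hat function -/
def sg (p σ : Pt) (m : Fin 4) : ℤ :=
  if p m = σ m + 1 then -1 else if p m = σ m - 1 then 1 else 0

omit [Algebra ℚ O]

theorem pderiv_hat (p σ : Pt) (m r : Fin 4) : pderiv r (hat p σ m : RR O) =
    (((if r = m then 1 else 0) * sg p σ m : ℤ) : RR O) := by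
  unfold hat sg
  split_ifs with h1 h2 h3 h3 h3 <;> simp [*, pderiv_X, eq_comm (a := m)]

theorem hat_congr {p' σ' : Pt} (h : p m = p' m) (h' : σ m = σ' m) :
    (hat p σ m : RR O) = hat p' σ' m := by
  unfold hat
  rw [h, h']

theorem hat_eq (h : p m = σ m) : (hat p σ m : RR O) = 1 := by
  unfold hat
  rw [if_neg (by omega), if_neg (by omega)]

theorem sg_eq (h : p m = σ m) : sg p σ m = 0 := by
  unfold sg
  rw [if_neg (by omega), if_neg (by omega)]

theorem ev_hat_ne (h : r ≠ m) (c : Bool) : ev m c (hat p σ r : RR O) = hat p σ r := by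
  unfold hat
  split_ifs <;> simp [ev, h]

theorem ev_hat (h1 : Even (σ m)) (h2 : Odd (p m)) (h3 : |p m - σ m| ≤ 1) (c : Bool) :
    ev m c (hat p σ m : RR O) = if face p m c m = σ m then 1 else 0 := by
  rw [abs_le] at h3
  rw [Int.even_iff] at h1
  rw [Int.odd_iff] at h2
  rw [face_self]
  unfold hat
  by_cases h4 : p m = σ m + 1
  · rw [if_pos h4]
    cases c
    · simp [ev, h4]
    · rw [if_pos rfl, if_neg (by omega)]
      simp [ev]
  · rw [if_neg h4, if_pos (by omega)]
    cases c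
    · rw [if_neg Bool.false_ne_true, if_neg (by omega)]
      simp [ev]
    · rw [if_pos rfl, if_pos (by omega)]
      simp [ev]

end pts

section star
variable {R : Type} {it : Item R} {p τ θ : Pt} {m n : Fin 4} {c : Bool}

/-- the intermediate cell -/
def mid (it : Item R) (τ : Pt) : Pt := Function.update it.σ it.k (τ it.k)

theorem nx1 (hv : it.Valid) (hs : it.Star τ) : Nx it.σ (mid it τ) it.k :=
  ⟨hv.2.1, fun _ hj => Function.update_of_ne hj _ _, by
    rw [mid, Function.update_self]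
    exact hs.2.1⟩

theorem nx2 (hv : it.Valid) (hs : it.Star τ) : Nx (mid it τ) τ it.l := by
  have h1 : mid it τ it.l = it.σ it.l := Function.update_of_ne hv.1.symm _ _
  refine ⟨h1 ▸ hv.2.2.1, fun j hj => ?_, h1 ▸ hs.2.2⟩
  by_cases h2 : j = it.k
  · rw [h2, mid, Function.update_self]
  · rw [mid, Function.update_of_ne h2, hs.1 j h2 hj]

theorem face_sig (hv : it.Valid) (hs : it.Star τ) : IsFace it.σ τ :=
  isFace_trans (nx1 hv hs).isFace (nx2 hv hs).isFace

theorem even_sig (hv : it.Valid) (hm : m = it.k ∨ m = it.l) : Even (it.σ m) := by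
  rcases hm with rfl | rfl
  · exact hv.2.1
  · exact hv.2.2.1

theorem star_le (hs : it.Star τ) (hm : m = it.k ∨ m = it.l) : |τ m - it.σ m| ≤ 1 := by
  rcases hm with rfl | rfl
  · exact hs.2.1
  · exact hs.2.2

theorem star_upd (hs : it.Star τ) (hm : m = it.k ∨ m = it.l) (h1 : ∀ j, j ≠ m → p j = τ j)
    (h2 : |p m - it.σ m| ≤ 1) : it.Star p := by
  refine ⟨fun j h3 h4 => ?_, ?_, ?_⟩
  · rw [h1 j (by rintro rfl; exact hm.elim h3 h4), hs.1 j h3 h4]
  · by_cases h3 : it.k = m
    · rwa [h3]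
    · rw [h1 _ h3]
      exact hs.2.1
  · by_cases h3 : it.l = m
    · rwa [h3]
    · rw [h1 _ h3]
      exact hs.2.2

theorem star_face (hv : it.Valid) (hm : m = it.k ∨ m = it.l) (ho : Odd (p m)) :
    it.Star (face p m c) ↔ it.Star p ∧ face p m c m = it.σ m := by
  refine ⟨fun h => ?_, fun h => star_upd h.1 hm (fun j hj => face_ne _ _ hj) (by simp [h.2])⟩
  have h1 := star_le h hm
  have h2 := even_sig hv hm
  have h3 := face_self p m c
  rw [abs_le] at h1
  rw [Int.even_iff] at h2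
  rw [Int.odd_iff] at ho
  have h4 : face p m c m = it.σ m := by split_ifs at h3 <;> omega
  refine ⟨star_upd h hm (fun j hj => (face_ne _ _ hj).symm) ?_, h4⟩
  rw [abs_le]
  split_ifs at h3 <;> omega

theorem star_even (hv : it.Valid) (hs : it.Star τ) (he : Even (τ m)) : τ m = it.σ m :=
  ((face_sig hv hs m).resolve_right fun h => Int.not_even_iff_odd.2 h.1 he).symm

theorem inc_of_o (h : it.o = 0) (θ : Pt) : it.inc θ = 0 := by
  simp [Item.inc, h]

theorem inc_ne (hv : it.Valid) (h : it.inc θ ≠ 0) (ho : ∀ r, r ≠ n → Odd (θ r)) :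
    it.Star θ ∧ (n = it.k ∨ n = it.l) ∧ θ n = it.σ n := by
  have h1 : it.Star θ ∧ ∃ r, (r = it.k ∨ r = it.l) ∧ θ r = it.σ r := by
    have h2 := hv.1
    have h3 := h2.symm
    unfold Item.inc at h
    split_ifs at h with h4 h4 h4 h4
    · exact ⟨⟨fun j h5 _ => by simp [h4, ee, h5], by simp [h4, ee], by simp [h4, ee, h3]⟩,
        _, Or.inr rfl, by simp [h4, ee, h3]⟩
    · exact ⟨⟨fun j h5 _ => by simp [h4, ee, h5], by simp [h4, ee], by simp [h4, ee, h3]⟩,
        _, Or.inr rfl, by simp [h4, ee, h3]⟩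
    · exact ⟨⟨fun j _ h5 => by simp [h4, ee, h5], by simp [h4, ee, h2], by simp [h4, ee]⟩,
        _, Or.inl rfl, by simp [h4, ee, h2]⟩
    · exact ⟨⟨fun j _ h5 => by simp [h4, ee, h5], by simp [h4, ee, h2], by simp [h4, ee]⟩,
        _, Or.inl rfl, by simp [h4, ee, h2]⟩
    · exact absurd rfl h
  obtain ⟨h1, r, h2, h3⟩ := h1
  obtain rfl : r = n := by
    by_contra h4
    exact Int.not_even_iff_odd.2 (ho r h4) (h3 ▸ even_sig hv h2)
  exact ⟨h1, h2, h3⟩

theorem inc_k (hv : it.Valid) (hs : it.Star θ) (ho : Odd (θ it.k)) (h : θ it.l = it.σ it.l) :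
    it.inc θ = it.o * sg θ it.σ it.k := by
  have h1 := hs.2.1
  have h2 := hv.2.1
  have h3 : θ = it.σ + (θ it.k - it.σ it.k) • ee it.k := funext fun j => by
    by_cases h4 : j = it.k
    · simp [h4, ee]
    · by_cases h5 : j = it.l
      · simp [h5, ee, h, hv.1.symm]
      · simp [ee, h4, hs.1 j h4 h5]
  rw [abs_le] at h1
  rw [Int.even_iff] at h2
  rw [Int.odd_iff] at ho
  unfold Item.inc sg
  by_cases h4 : θ it.k = it.σ it.k + 1
  · rw [show θ it.k - it.σ it.k = 1 by omega, one_smul] at h3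
    rw [if_pos h3, if_pos h4, mul_neg_one]
  · rw [show θ it.k - it.σ it.k = -1 by omega, neg_one_smul, ← sub_eq_add_neg] at h3
    rw [if_neg fun h5 => h4 (by simp [h5, ee]), if_pos h3, if_neg h4, if_pos (by omega), mul_one]

theorem inc_l (hv : it.Valid) (hs : it.Star θ) (ho : Odd (θ it.l)) (h : θ it.k = it.σ it.k) :
    it.inc θ = -(it.o * sg θ it.σ it.l) := by
  have h1 := hs.2.2
  have h2 := hv.2.2.1
  have h3 : θ = it.σ + (θ it.l - it.σ it.l) • ee it.l := funext fun j => by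
    by_cases h4 : j = it.l
    · simp [h4, ee]
    · by_cases h5 : j = it.k
      · simp [h5, ee, h, hv.1]
      · simp [ee, h4, hs.1 j h5 h4]
  have h5 : θ ≠ it.σ + ee it.k := fun h5 => by simp [h5, ee] at h
  have h6 : θ ≠ it.σ - ee it.k := fun h5 => by simp [h5, ee] at h
  rw [abs_le] at h1
  rw [Int.even_iff] at h2
  rw [Int.odd_iff] at ho
  unfold Item.inc sg
  rw [if_neg h5, if_neg h6]
  by_cases h4 : θ it.l = it.σ it.l + 1
  · rw [show θ it.l - it.σ it.l = 1 by omega, one_smul] at h3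
    rw [if_pos h3, if_pos h4, mul_neg_one, neg_neg]
  · rw [show θ it.l - it.σ it.l = -1 by omega, neg_one_smul, ← sub_eq_add_neg] at h3
    rw [if_neg fun h5 => h4 (by simp [h5, ee]), if_pos h3, if_neg h4, if_pos (by omega), mul_one]

end star

end Vale.Agent.P215Z.It
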