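import Vale.Agent.P215Z.Frm.Flat
import Vale.Agent.P215Z.Frm.It.Geo

/-!
# P215: the transported value of a source
-/

noncomputable section
namespace Vale.Agent.P215Z.It
open MvPolynomial Classical
variable {O : Type} [CommRing O] [Algebra ℚ O]

section alg
variable {k : Fin 4} {c : Bool}

theorem pd_zero (k : Fin 4) : pd k (0 : MM O) = 0 := by
  have h := pd_sub k (0 : MM O) 0
  rwa [sub_self, sub_self] at h

omit [Algebra ℚ O] in
theorem pd_smul (k : Fin 4) (r : RR O) (x : MM O) :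
    pd k (r • x) = pderiv k r • x + r • pd k x := by
  ext1 a b
  simp only [pd, Matrix.map_apply, Matrix.smul_apply, Matrix.add_apply, smul_eq_mul,
    Derivation.leibniz]
  ring

omit [Algebra ℚ O] in
theorem pd_zsmul (k : Fin 4) (z : ℤ) (x : MM O) : pd k (z • x) = z • pd k x := by
  ext1 a b
  simp only [pd, Matrix.map_apply, Matrix.smul_apply, map_zsmul]

omit [Algebra ℚ O] in
theorem evM_smul (k : Fin 4) (c : Bool) (r : RR O) (x : MM O) :
    evM k c (r • x) = ev k c r • evM k c x := by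
  ext1 a b
  simp only [evM, Matrix.map_apply, Matrix.smul_apply, smul_eq_mul, map_mul]

omit [Algebra ℚ O] in
theorem evM_zsmul (k : Fin 4) (c : Bool) (z : ℤ) (x : MM O) :
    evM k c (z • x) = z • evM k c x := by
  ext1 a b
  simp only [evM, Matrix.map_apply, Matrix.smul_apply, map_zsmul]

omit [Algebra ℚ O] in
theorem evM_zero (k : Fin 4) (c : Bool) : evM k c (0 : MM O) = 0 := by
  ext1 a b
  simp only [evM, Matrix.map_apply, Matrix.zero_apply, map_zero]

theorem pd_Ad {g : (MM O)ˣ} (h : pd k (g : MM O) = 0) (y : M2 O) : pd k (Ad g (cst y)) = 0 := by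
  rw [Ad, pd_mul, pd_mul, pd_inv, h, pd_cst]
  simp

theorem evM_Ad {g g' : (MM O)ˣ} (h : evM k c (g : MM O) = g') (y : M2 O) :
    evM k c (Ad g (cst y)) = Ad g' (cst y) := by
  have h1 : evM k c (↑g⁻¹ : MM O) = ↑g'⁻¹ := by
    refine Units.eq_inv_of_mul_eq_one_right ?_
    rw [← h, ← evM_mul, Units.inv_mul, evM_one]
  rw [Ad, evM_mul, evM_mul, h, h1, evM_cst, Ad]

theorem map_Ad {A B : Type} [Ring A] [Ring B] (φ : A →+* B) (g : Aˣ) (x : A) :
    φ (Ad g x) = Ad (Units.map φ.toMonoidHom g) (φ x) := by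
  rw [Ad, Ad, map_mul, map_mul]
  rfl

omit [Algebra ℚ O] in
theorem at0_Ad (g : (MM O)ˣ) (x : MM O) : at0 (Ad g x) = Ad (at0U g) (at0 x) :=
  map_Ad (RingHom.mapMatrix (m := Fin 2) constantCoeff) g x

/-- constant units -/
def cstU (u : (M2 O)ˣ) : (MM O)ˣ := Units.map (RingHom.mapMatrix (m := Fin 2) C).toMonoidHom u

omit [Algebra ℚ O] in
theorem cst_Ad (u : (M2 O)ˣ) (y : M2 O) : cst (Ad u y) = Ad (cstU u) (cst y) :=
  map_Ad (RingHom.mapMatrix (m := Fin 2) C) u y

theorem Ad_cg {b ii : Ideal O} (hii : ii * ii = ⊥) {x : MM O} (hx : InI ii x) {g g' : (MM O)ˣ}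
    (h : InI (b ⊔ ii) ((g : MM O) - g')) : InI (ii * b) (Ad g x - Ad g' x) := by
  rw [inI_iff, Ideal.map_mul]
  refine InC.Ad_sub (by rw [← Ideal.map_mul, hii, Ideal.map_bot]) hx ?_
  rwa [← Ideal.map_sup]

theorem Ad_cg' {b ii : Ideal O} {x : MM O} (hx : InI ii x) {g g' : (MM O)ˣ}
    (h : InI b ((g : MM O) - g')) : InI (ii * b) (Ad g x - Ad g' x) := by
  have h1 : Ad g x - Ad g' x = ((↑g⁻¹ : MM O) - ↑g'⁻¹) * (x * g) + ↑g'⁻¹ * x * (g - g') := by
    simp only [Ad, sub_mul, mul_sub, mul_assoc, sub_add_sub_cancel]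
  rw [h1]
  refine InC.add ?_ (InI.mul (InC.mul_left hx _) h)
  rw [mul_comm ii]
  exact InI.mul (InC.inv_sub h) (InC.mul_right hx _)

theorem cg_iff {b : Ideal O} {g g' : (MM O)ˣ} :
    InI b ((g : MM O) - g') ↔ QuotientGroup.mk' (UG b) g = QuotientGroup.mk' (UG b) g' := by
  rw [inI_sub_iff, ← div_eq_mul_inv]
  exact QuotientGroup.eq_iff_div_mem.symm

variable (A : F1 O) (p : Pt)

theorem cov_add (k : Fin 4) (x y : MM O) : cov A p k (x + y) = cov A p k x + cov A p k y := by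
  simp only [cov, pd_add, Ring.lie_def, mul_add, add_mul]
  abel

theorem cov_zero (k : Fin 4) : cov A p k 0 = 0 := by
  rw [cov, pd_zero, Ring.lie_def, mul_zero, zero_mul, sub_zero, add_zero]

theorem cov_sum {ι : Type} (s : Finset ι) (k : Fin 4) (x : ι → MM O) :
    cov A p k (∑ i ∈ s, x i) = ∑ i ∈ s, cov A p k (x i) :=
  map_sum (AddMonoidHom.mk' (cov A p k) (cov_add A p k)) x s

omit [Algebra ℚ O] in
theorem cov_smul (k : Fin 4) (z : ℤ) (r : RR O) (x : MM O) :
    cov A p k (z • r • x) = (z • pderiv k r) • x + z • r • cov A p k x := by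
  rw [cov, cov, pd_zsmul, pd_smul, smul_assoc]
  simp only [Ring.lie_def, Matrix.mul_smul, Matrix.smul_mul, smul_add, smul_sub, add_assoc]

theorem inI_cov {b : Ideal O} {x : MM O} (h : InI b x) (k : Fin 4) : InI b (cov A p k x) :=
  InC.add (h.pd k) (InC.sub (InC.mul_left h _) (InC.mul_right h _))

theorem cov_Ad (k : Fin 4) (U : (MM O)ˣ) (y : M2 O) : cov A p k (Ad U (cst y)) =
    ↑U⁻¹ * cst y * (pd k (U : MM O) - U * A p k) -
      ↑U⁻¹ * (pd k (U : MM O) - U * A p k) * Ad U (cst y) := by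
  rw [cov, Ad, pd_mul, pd_mul, pd_inv, pd_cst, Ring.lie_def]
  simp only [mul_sub, sub_mul, mul_assoc, Units.inv_mul_cancel_left, mul_zero, add_zero, neg_mul]
  abel

end alg

/-- the transport from the lowest vertex of the two-cell -/
def tr (A : F1 O) (it : Item O) (τ : Pt) : (MM O)ˣ :=
  Up A it.σ * step A it.σ (mid it τ) * step A (mid it τ) τ

omit [Algebra ℚ O] in
theorem xi_eq (A : F1 O) (it : Item O) (τ : Pt) : it.xi A τ = Ad (tr A it τ) (cst it.Y) := rfl

theorem xi_inI (A : F1 O) (it : Item O) {ii : Ideal O} (h : InC ii it.Y) (τ : Pt) :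
    InI ii (it.xi A τ) := InC.Ad ((inI_cst _ _).2 h) _

variable {a : Ideal O} (ha : IsNilpotent a) {K : Set Pt} (hK : Cx K) {A : F1 O} (hA : Good1 K A)
  (hA' : In1 K a A) {it : Item O} {p σ τ : Pt} {m j : Fin 4} {c : Bool}

include ha hA hA' in
theorem pd_step (h : Nx σ τ m) (hτ : τ ∈ K) (he : Even (τ j)) :
    pd j (step A σ τ : MM O) = 0 := by
  rcases h.cases with rfl | ⟨c, h1, rfl⟩
  · rw [step_self, Units.val_one, pd_one]
  · rw [step_in A c h1]
    exact inn_indep ha c (hA' τ hτ m h1) (by rintro rfl; exact Int.not_even_iff_odd.2 h1 he)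
      (hA.indep τ hτ m j h1 he)

include ha hK hA hA'

theorem pd_tr (hv : it.Valid) (hs : it.Star τ) (hτ : τ ∈ K) (he : Even (τ j)) :
    pd j (tr A it τ : MM O) = 0 := by
  have h1 := (nx2 hv hs).isFace
  have h2 := face_sig hv hs
  rw [tr, Units.val_mul, Units.val_mul, pd_mul, pd_mul,
    Up_indep ha hK hA hA' (hK.isFace hτ h2) (isFace_even h2 he),
    pd_step ha hA hA' (nx1 hv hs) (hK.isFace hτ h1) (isFace_even h1 he),
    pd_step ha hA hA' (nx2 hv hs) hτ he]
  simp

theorem ev_tr (hv : it.Valid) (hs : it.Star p) (hp : p ∈ K) (hm : m = it.k ∨ m = it.l)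
    (ho : Odd (p m)) (h : face p m c m = it.σ m) :
    evM m c (tr A it p : MM O) = tr A it (face p m c) := by
  have h1 := (nx2 hv hs).isFace
  have h2 := face_sig hv hs
  have h3 := hK.isFace hp h1
  have hkl := hv.1
  rw [tr, tr, Units.val_mul, Units.val_mul, evM_mul, evM_mul,
    evM_of_pd (Up_indep ha hK hA hA' (hK.isFace hp h2) (even_sig hv hm))]
  rcases hm with rfl | rfl
  · have h4 : mid it (face p it.k c) = it.σ := by rw [mid, h, Function.update_eq_self]
    have h5 : mid it p it.k = p it.k := Function.update_self _ _ _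
    have h6 : face (mid it p) it.k c = it.σ := by
      rw [face, h5, ← face_self, h, mid, Function.update_idem, Function.update_eq_self]
    have h7 : evM it.k c (step A it.σ (mid it p) : MM O) = 1 := by
      rw [← h6, step_in A c (h5 ▸ ho)]
      exact (inn_spec ha c (hA' _ h3 _ (h5 ▸ ho))).2
    rw [h4, h7, step_self, mul_one, mul_one, Units.val_mul]
    congr 1
    rcases (nx2 hv hs).cases with h8 | ⟨c', h8, h9⟩
    · rw [← h8, step_self, Units.val_one, evM_one]
      rw [← h8] at h6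
      rw [h6, step_self, Units.val_one]
    · rw [h9, step_in A c' h8, inn_face ha hA hA' hp h8 ho hkl.symm, ← h6, h9,
        face_comm p hkl, step_in A c' (by rwa [face_ne _ _ hkl.symm])]
  · have h4 : face p it.l c = mid it p := funext fun r => by
      by_cases h5 : r = it.l
      · rw [h5, h, mid, Function.update_of_ne hkl.symm]
      · rw [face_ne _ _ h5, (nx2 hv hs).2.1 r h5]
    have h5 : mid it (face p it.l c) = mid it p := by rw [mid, mid, face_ne _ _ hkl]
    have h6 : evM it.l c (step A (mid it p) p : MM O) = 1 := by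
      rw [← h4, step_in A c ho]
      exact (inn_spec ha c (hA' _ hp _ ho)).2
    rw [h5, h6, h4, step_self, mul_one, mul_one, Units.val_mul,
      evM_of_pd (pd_step ha hA hA' (nx1 hv hs) h3 (nx2 hv hs).1)]

theorem tr_Up (hv : it.Valid) {b : Ideal O} (hτ : τ ∈ K) (hs : it.Star τ) (hf : FlatAt A b τ) :
    InI b ((tr A it τ : MM O) - (cstU (at0U (tr A it τ)) * Up A τ : (MM O)ˣ)) := by
  have h1 := (nx2 hv hs).isFace
  have h2 := face_sig hv hs
  have h3 := shift_holL ha hK hA hA' (b := b) it.σ [mid it τ, τ] (hK.isFace hτ h2) (by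
    simp only [List.isChain_cons_cons, List.isChain_singleton, and_true]
    exact ⟨⟨(nx1 hv hs).adj, τ, hτ, hf, h2, h1⟩, (nx2 hv hs).adj, τ, hτ, hf, h1, isFace_refl τ⟩)
  have h4 : at0U (tr A it τ) = at0U (holL (step A) [it.σ, mid it τ, τ]) := by
    have h5 := at0_Up ha hK hA hA' (hK.isFace hτ h2)
    simp only [tr, holL, at0U, map_mul, mul_one, mul_assoc] at h5 ⊢
    rw [h5, one_mul]
  rw [h4]
  simp only [holL, mul_one, ← mul_assoc] at h3 ⊢
  exact h3

theorem tr_step (hv : it.Valid) {b : Ideal O} {τ' : Pt} (hs : it.Star τ) (hs' : it.Star τ')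
    (hf : FlatStep K A b τ τ') :
    InI b ((tr A it τ' : MM O) - (tr A it τ * step A τ τ' : (MM O)ˣ)) := by
  obtain ⟨h1, q, hq, h2, h3, h4⟩ := hf
  obtain ⟨g, -, -, hg⟩ := cell_flat ha hK hA hA' hq h2
  have h5 : ∀ x y, IsFace x q → IsFace y q → Adj x y → QuotientGroup.mk' (UG b) (step A x y) =
      (QuotientGroup.mk' (UG b) (g x))⁻¹ * QuotientGroup.mk' (UG b) (g y) := fun x y k1 k2 k3 => by
    rw [← cg_iff.1 (hg x y k1 k2 k3), map_mul, inv_mul_cancel_left]
  have h6 := isFace_trans (face_sig hv hs) h3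
  have h7 := isFace_trans (nx2 hv hs).isFace h3
  have h8 := isFace_trans (nx2 hv hs').isFace h4
  rw [cg_iff]
  simp only [tr, map_mul, h5 _ _ h6 h7 (nx1 hv hs).adj, h5 _ _ h7 h3 (nx2 hv hs).adj,
    h5 _ _ h6 h8 (nx1 hv hs').adj, h5 _ _ h8 h4 (nx2 hv hs').adj, h5 _ _ h3 h4 h1, mul_assoc,
    mul_inv_cancel_left]

omit hA in
theorem tr_congr {A' : F1 O} (hB : In1 K a A') (hv : it.Valid) {b : Ideal O}
    (h : In1 K b (A - A')) (hτ : τ ∈ K) (hs : it.Star τ) :
    InI b ((tr A it τ : MM O) - tr A' it τ) := by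
  have h1 := hK.isFace hτ (nx2 hv hs).isFace
  have h2 := hK.isFace hτ (face_sig hv hs)
  simp only [tr, Units.val_mul]
  exact InC.mul_sub (InC.mul_sub (Up_congr ha hK hA' hB h h2) (step_congr ha hA' hB h h2 h1))
    (step_congr ha hA' hB h h1 hτ)

end Vale.Agent.P215Z.It
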